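import Vale.Agent.P022S.Tn.A

/-!
# P022S, row TANV: the abstract form
-/

set_option linter.all false

noncomputable section

namespace Vale.Agent.P022S.Tn

open NumberField IsLocalRing MvPowerSeries
open Vale.Agent.P022 Vale.Agent.P022S.R Vale.Agent.P022S.Loc
open Vale.Agent.P022G (Hm)
open Vale.Agent.P022G.H9T (Fo BB bπ bf bs fo bfin bker bloc dv dv_C dv_inl dv_inr pb pb_f pb_s
  pb_π loc_ps)
open Vale.Agent.P022S.Mod (Gen2)
open Vale.Agent.P027M.S (Inert mx)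
open Vale.Agent.P022D.Sel (M2)
open Vale.Agent.P022D.Core (PS Coef)
open _root_.P022G.Sel (mr TanR TanS tI rd Lv)
open _root_.P022G.Sel.Bas (mh two_q)

variable {O F : Type} [CommRing O] [Field F] {S : Dat O F}

theorem obj_ext {B : Type} [CommRing B] {X Y : Obj S B} (a : X.ι = Y.ι) (b : X.π = Y.π)
    (c : X.ρ = Y.ρ) (d : X.α = Y.α) : X = Y := by
  have e : X.β = Y.β := funext fun l => by
    rw [← one_mul (X.β l), ← mul_eq_one_comm.1 (Y.inv l), mul_assoc, ← d, X.inv, mul_one]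
  cases X
  cases Y
  cases a
  cases b
  cases c
  cases d
  cases e
  rfl

theorem pb_eq {R : Type} [CommRing R] {red : O →+* F} {j : O →+* R}
    {t : R} {I Z : Type} [Fintype Z] (θ : PS O (I ⊕ Z) →+* R) (v w : Z → R)
    (h : ∀ g, t ∣ θ g - j (constantCoeff g)) (g : PS O (I ⊕ Z)) (e : dv θ v g = dv θ w g) :
    pb (red := red) θ v h g = pb θ w h g :=
  (fo red j t).ext _ _ (by rw [pb_f, pb_f]) (by rw [pb_s, pb_s, e]) (by rw [pb_π, pb_π])

theorem j_zero [IsDomain O] [IsDiscreteValuationRing O] [h : Coef O] {V : Type} [CommRing V]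
    [IsDomain V] [CharP V 2] (j : O →+* V) (o : O) (ho : o ∈ maximalIdeal O) : j o = 0 := by
  obtain ⟨ϖ, hϖ⟩ := IsDiscreteValuationRing.exists_irreducible O
  have jϖ : j ϖ = 0 := by
    obtain ⟨n, u, hu⟩ := IsDiscreteValuationRing.eq_unit_mul_pow_irreducible h.ne hϖ
    have h2 : j 2 = 0 := by
      rw [map_ofNat]
      exact CharTwo.two_eq_zero
    rw [hu, map_mul, map_pow] at h2
    exact IsNilpotent.eq_zero ⟨n, (mul_eq_zero.1 h2).resolve_left (u.isUnit.map j).ne_zero⟩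
  rw [(IsDiscreteValuationRing.irreducible_iff_uniformizer ϖ).1 hϖ,
    Ideal.mem_span_singleton] at ho
  obtain ⟨c, rfl⟩ := ho
  rw [map_mul, jϖ, zero_mul]

theorem df_of (h1 : ∀ g, S.rb g = 1) {Q : Finset ℕ} {ι : Type} {γ : ι → GQ} (hG : Gen2 S.T Q γ)
    {R : Type} [CommRing R] [Finite R] (h2 : (2 : R) = 0) {t : R} {N : ℕ} (ht : t ^ N = 0)
    {ρ : GQ →* GL (Fin 2) R} (res : ∀ g a b, t ∣ (mr ρ g - 1) a b) {D : ℕ → Set GQ}
    (lv : Lv ρ S.T D) {B : Type} [CommRing B] (f : B →+* R) (Y : Obj S B)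
    (hk : ∀ x, Y.π x = 0 → t ∣ f x) (hU : Unr Y Q)
    (gp : ∀ i a b, f (Y.ρ (γ i) a b) = mr ρ (γ i) a b)
    (ga : ∀ l ∈ S.T, l ≠ S.l0 → ∀ a b, f ((Y.α l - 1) a b) = 0) : Df f ρ Y := by
  refine ⟨gen_eq h2 ht hG (f.mapMatrix.toMonoidHom.comp Y.ρ) (mh ρ) ?_ ?_ (fun g a b => ?_) res
    (fun l a b c P d e s i => ⟨?_, ?_⟩) fun i => Matrix.ext (gp i), fun l => ?_⟩
  · refine Subgroup.isOpen_mono (H₁ := Y.ρ.ker) (H₂ := MonoidHom.ker _) (fun g hg => ?_) Y.opn
    rw [MonoidHom.mem_ker, MonoidHom.comp_apply, MonoidHom.mem_ker.1 hg, map_one]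
  · refine Subgroup.isOpen_mono (H₁ := ρ.ker) (H₂ := MonoidHom.ker _) (fun g hg => ?_) lv.opn
    rw [MonoidHom.mem_ker, mh, MonoidHom.comp_apply, MonoidHom.mem_ker.1 hg, map_one]
  · have e := hk ((Y.ρ g - 1) a b) (by
      have := congrFun (congrFun (Y.res g) a) b
      rw [Matrix.map_apply, mx, h1] at this
      rw [Matrix.sub_apply, map_sub, this, Matrix.one_apply, Units.val_one, Matrix.one_apply,
        apply_ite Y.π, map_one, map_zero, sub_self])
    rw [Matrix.sub_apply, map_sub, Matrix.one_apply, apply_ite f, map_one, map_zero] at e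
    rw [Matrix.sub_apply, Matrix.one_apply]
    exact e
  · rw [MonoidHom.comp_apply, hU l a b c P d e s i, map_one]
  · rw [mh, MonoidHom.comp_apply, lv.unr l b P ⟨a, d, e⟩ s i, map_one]
  · by_cases hl : l ∈ S.T
    · by_cases h0 : l = S.l0
      · rw [h0, Y.fr, Matrix.map_one _ (map_zero _) (map_one _)]
      · ext a b
        have e := ga l hl h0 a b
        rw [Matrix.sub_apply, map_sub, sub_eq_zero, Matrix.one_apply, apply_ite f, map_one,
          map_zero] at e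
        rw [Matrix.map_apply, e, Matrix.one_apply]
    · rw [Y.off l hl, Matrix.map_one _ (map_zero _) (map_one _)]

/-- **the vectors killed by the Jacobian rows are relative tangent vectors** -/
theorem tanv_gen [IsDomain O] [IsDiscreteValuationRing O] [Coef O] [Finite F]
    (ker : ∀ c, S.red c = 0 ↔ c ∈ maximalIdeal O) (h1 : ∀ g, S.rb g = 1)
    {I Z : Type} [Fintype Z] (vv : Crd S (I ⊕ Z)) (Cc : Cl S) {Q : Finset ℕ}
    (hU : ∀ (B : Type) [CommRing B] (Y : Obj S B), Cc B Y → Unr Y Q) (Kn : Ideal (PS O (I ⊕ Z)))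
    (repo : ∀ (B : Type) [CommRing B] [Finite B] (π : B →+* F) (ψ : PS O (I ⊕ Z) →+* B),
      (∀ u, π u ≠ 0 → IsUnit u) → (∀ f, π (ψ f) = S.red (constantCoeff f)) →
      Kn ≤ RingHom.ker ψ → ∃ Y : Obj S B, Y.π = π ∧ Cc B Y ∧ Hm Y.ι (vv B Y) ψ)
    {D : ℕ → Set GQ}
    (det : ∀ (B : Type) [CommRing B] (X Y : Obj S B), X.ι = Y.ι → X.π = Y.π → Cc B X → Cc B Y →
      (∀ i, vv B X (Sum.inl i) = vv B Y (Sum.inl i)) → ∀ l ∈ S.T, ∀ g ∈ D l, lr X l g = lr Y l g)
    {ι : Type} {γ : ι → GQ} (hG : Gen2 S.T Q γ)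
    {V : Type} [CommRing V] [IsDomain V] [IsDiscreteValuationRing V] [CharP V 2]
    [Finite (ResidueField V)] {t : V} (ht : Irreducible t) {ρ : GQ →* GL (Fin 2) V} (N : ℕ)
    (res : ∀ g a b, t ∣ (mr ρ g - 1) a b) (lv : Lv (rd (tI t N) ρ) S.T D)
    (θ0 : PS O (I ⊕ Z) →+* V) (hK : Kn ≤ RingHom.ker θ0)
    (gp : ∀ i a b, ∃ p, (∀ (B : Type) [CommRing B] (Y : Obj S B) (ψ : PS O (I ⊕ Z) →+* B),
      Hm Y.ι (vv B Y) ψ → ψ p = Y.ρ (γ i) a b) ∧ t ^ N ∣ θ0 p - mr ρ (γ i) a b)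
    (ga : ∀ l ∈ S.T, l ≠ S.l0 → ∀ a b, ∃ p, (∀ (B : Type) [CommRing B] (Y : Obj S B)
      (ψ : PS O (I ⊕ Z) →+* B), Hm Y.ι (vv B Y) ψ → ψ p = (Y.α l - 1) a b) ∧ θ0 p = 0)
    (hfin : (TanS (rd (tI t N) ρ) S.T Q D).Finite) :
    Nat.card {v : Z → V ⧸ tI t N // ∀ f : Kn, ∑ z, Ideal.Quotient.mk (tI t N)
        (θ0 (pderiv O (Sum.inr z) f.1)) * v z = 0} * Nat.card (V ⧸ tI t N) ^ 4 ≤
      Nat.card (TanS (rd (tI t N) ρ) S.T Q D) := by
  let mk : V →+* V ⧸ tI t N := Ideal.Quotient.mk _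
  let j : O →+* V := θ0.comp C
  have hm : maximalIdeal V = Ideal.span {t} :=
    (IsDiscreteValuationRing.irreducible_iff_uniformizer t).1 ht
  haveI : Finite (V ⧸ tI t N) := by
    haveI : Finite (V ⧸ maximalIdeal V) := inferInstanceAs (Finite (ResidueField V))
    have := Ideal.finite_quotient_pow (IsNoetherian.noetherian (maximalIdeal V)) N
    rwa [hm, Ideal.span_singleton_pow] at this
  have hj' : ∀ o, S.red o = 0 → mk.comp j o = 0 := fun o h => by
    rw [RingHom.comp_apply, j_zero j o ((ker o).1 h), map_zero]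
  have hu : ∀ o, S.red o ≠ 0 → IsUnit o := fun o h => by
    by_contra k
    exact h ((ker o).2 k)
  have tN : mk t ^ N = 0 := by
    rw [← map_pow]
    exact Ideal.Quotient.eq_zero_iff_mem.2 (Ideal.mem_span_singleton_self _)
  have hθV : ∀ g, t ∣ θ0 g - j (constantCoeff g) := fun g => by
    have := loc_ps θ0 (g - C (constantCoeff g)) (by rw [map_sub, constantCoeff_C, sub_self])
    rwa [hm, Ideal.mem_span_singleton, map_sub] at this
  have hθ : ∀ g, mk t ∣ mk.comp θ0 g - mk.comp j (constantCoeff g) := fun g => by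
    have := map_dvd mk (hθV g)
    rwa [map_sub] at this
  have fo := fo S.red (mk.comp j) (mk t)
  haveI := bfin S.red (mk.comp j) (mk t)
  have ex : ∀ v : {v : Z → V ⧸ tI t N // ∀ f : Kn,
      ∑ z, Ideal.Quotient.mk (tI t N) (θ0 (pderiv O (Sum.inr z) f.1)) * v z = 0},
      ∃ Y : Obj S (BB S.red (mk.comp j) (mk t)), Y.π = bπ S.red (mk.comp j) (mk t) ∧
        Cc _ Y ∧ Hm Y.ι (vv _ Y) (pb (mk.comp θ0) v.1 hθ) := fun v =>
    repo _ (bπ S.red (mk.comp j) (mk t)) (pb (mk.comp θ0) v.1 hθ) (bloc hu ⟨N, tN⟩)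
      (pb_π _ _ hθ) fun g hg => by
        have a : θ0 g = 0 := hK hg
        refine fo.ext _ 0 ?_ ?_ ?_
        · rw [pb_f, map_zero, RingHom.comp_apply, a, map_zero]
        · rw [pb_s, map_zero]
          exact v.2 ⟨g, hg⟩
        · rw [pb_π, map_zero]
          by_contra k
          have b := hθV g
          rw [a, zero_sub, dvd_neg] at b
          exact ht.not_isUnit (isUnit_of_dvd_unit b ((hu _ k).map j))
  choose Y hπ hT hH using ex
  have hι : ∀ v w, (Y v).ι = (Y w).ι := fun v w => RingHom.ext fun o => by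
    rw [← (hH v).c, ← (hH w).c]
    exact pb_eq _ _ _ _ _ (by rw [dv_C, dv_C])
  refine tan_card fo Y ⟨0, fun f => by simp⟩ hπ (fun v => ?_) (fun v => hU _ _ (hT v))
    (fun v => det _ _ _ (hι _ _) ((hπ _).trans (hπ _).symm) (hT _) (hT _) fun i => ?_)
    (fun v w b c => Subtype.ext (funext fun z => ?_)) hfin
  · refine df_of h1 hG (two_q _) tN (fun g a b => ?_) lv _ (Y v)
      (fun x hx => bker hj' x (by rw [← hπ v]; exact hx)) (hU _ _ (hT v)) (fun i a b => ?_)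
      fun l hl h0 a b => ?_
    · have e := map_dvd mk (res g a b)
      rw [Matrix.sub_apply, map_sub, Matrix.one_apply, apply_ite mk, map_one, map_zero] at e
      rw [Matrix.sub_apply, Matrix.one_apply]
      exact e
    · obtain ⟨p, e1, e2⟩ := gp i a b
      rw [← e1 _ _ _ (hH v), pb_f]
      exact Ideal.Quotient.eq.2 (Ideal.mem_span_singleton.2 e2)
    · obtain ⟨p, e1, e2⟩ := ga l hl h0 a b
      rw [← e1 _ _ _ (hH v), pb_f, RingHom.comp_apply, e2, map_zero]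
  · rw [← (hH _).x, ← (hH _).x]
    exact pb_eq _ _ _ _ _ (by rw [dv_inl, dv_inl])
  · rw [← dv_inr (mk.comp θ0) v.1 z, ← dv_inr (mk.comp θ0) w.1 z, ← pb_s (red := S.red) _ _ hθ,
      ← pb_s (red := S.red) _ _ hθ, (hH v).x, (hH w).x,
      obj_ext (hι v w) ((hπ _).trans (hπ _).symm) b c]

end Vale.Agent.P022S.Tn
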