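import Vale.Agent.P022G.Rw.Tanv2
import Vale.Agent.P022S.Loc.Defs
import Vale.Agent.P022S.Mod.Gw

/-!
# P022S, row TANV: first order deformations of an object
-/

set_option linter.all false

noncomputable section

namespace Vale.Agent.P022S.Tn

open NumberField
open Vale.Agent.P022 Vale.Agent.P022S.R Vale.Agent.P022S.Loc
open Vale.Agent.P022G.H9T (Fo uni_one)
open Vale.Agent.P022S.Mod (Gen2)
open Vale.Agent.P027M.S (Inert mx)
open Vale.Agent.P022D.Sel (M2)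
open Vale.Agent.P022E.GW (Ov)
open _root_.P022G.Sel (mr TanR TanS)
open _root_.P022G.Sel.Bas (mm m1 mi mi')

variable {O F R B : Type} [CommRing O] [Field F] [CommRing R] [CommRing B] {S : Dat O F}

theorem gen_eq [Finite R] (h2 : (2 : R) = 0) {t : R} {N : ℕ} (ht : t ^ N = 0) {T Q : Finset ℕ}
    {ι : Type} {γ : ι → GQ} (hG : Gen2 T Q γ) (f₁ f₂ : GQ →* M2 R)
    (o₁ : IsOpen {g | f₁ g = 1}) (o₂ : IsOpen {g | f₂ g = 1})
    (u₁ : ∀ g a b, t ∣ (f₁ g - 1) a b) (u₂ : ∀ g a b, t ∣ (f₂ g - 1) a b)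
    (n : ∀ l : ℕ, l.Prime → l ∉ T → l ∉ Q → ∀ P : Ideal (𝓞 Qb), P.IsPrime → (l : 𝓞 Qb) ∈ P →
      ∀ s, Inert P s → f₁ s = 1 ∧ f₂ s = 1)
    (e : ∀ i, f₁ (γ i) = f₂ (γ i)) (g : GQ) : f₁ g = f₂ g := by
  let f : GQ →* (M2 R)ˣ × (M2 R)ˣ := f₁.toHomUnits.prod f₂.toHomUnits
  have k : ∀ g, f g = 1 ↔ f₁ g = 1 ∧ f₂ g = 1 := fun g => by
    rw [Prod.ext_iff, Units.ext_iff, Units.ext_iff]
    rfl
  have h := hG _ f (by simp only [k]; exact o₁.inter o₂)
    (fun g => ⟨N, by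
      rw [← map_pow, k, map_pow, map_pow]
      exact ⟨uni_one h2 ht (u₁ g), uni_one h2 ht (u₂ g)⟩⟩)
    (fun l a b c P d e s i => (k s).2 (n l a b c P d e s i)) g
  have hle : Subgroup.closure (Set.range fun i => f (γ i)) ≤
      (MonoidHom.fst _ _).eqLocus (MonoidHom.snd _ _) := by
    rw [Subgroup.closure_le]
    rintro _ ⟨i, rfl⟩
    exact Units.ext (e i)
  exact congrArg Units.val (hle h)

variable {π : B →+* F} {f : B →+* R} {s : B →+ R}

/-- `Y` is a deformation of `ρ` with trivial frames -/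
structure Df (f : B →+* R) (ρ : GQ →* GL (Fin 2) R) (Y : Obj S B) : Prop where
  r : ∀ g, (Y.ρ g).map f = mr ρ g
  a : ∀ l, (Y.α l).map f = 1

variable {ρ : GQ →* GL (Fin 2) R}

theorem lr_s (h : Fo π f s) {Y : Obj S B} (d : Df f ρ Y) (l : ℕ) (g : GQ) :
    (lr Y l g).map s = mr ρ g * (Y.α l).map s + (Y.ρ g).map s - (Y.α l).map s * mr ρ g := by
  have b1 : (Y.β l).map f = 1 := by
    have := congrArg (fun M : M2 B => M.map f) (Y.inv l)
    simpa only [Matrix.map_mul, d.a, one_mul, Matrix.map_one f f.map_zero f.map_one] using this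
  have b2 : (Y.β l).map s = -(Y.α l).map s := by
    have := h.mmul (Y.α l) (Y.β l)
    rw [Y.inv, h.mone, d.a, b1, one_mul, mul_one] at this
    exact eq_neg_of_add_eq_zero_left this.symm
  rw [lr_apply, h.mmul, h.mmul, Matrix.map_mul, b1, b2, d.a, d.r]
  noncomm_ring

/-- the tangent vector -/
def tv (s : B →+ R) (ρ : GQ →* GL (Fin 2) R) (Y Y0 : Obj S B) (m : M2 R) :
    (GQ → M2 R) × (ℕ → M2 R) :=
  (fun g => ((Y.ρ g).map s - (Y0.ρ g).map s) * mr ρ g⁻¹ + (m - mr ρ g * m * mr ρ g⁻¹),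
    fun l => if l ∈ S.T then (Y.α l).map s - (Y0.α l).map s + m else 0)

theorem tv_tan (h : Fo π f s) {Y Y0 : Obj S B} (d : Df f ρ Y) (d0 : Df f ρ Y0) {Q : Finset ℕ}
    (u : Unr Y Q) (u0 : Unr Y0 Q) {D : ℕ → Set GQ}
    (hl : ∀ l ∈ S.T, ∀ g ∈ D l, lr Y l g = lr Y0 l g) (m : M2 R) :
    TanR ρ S.T Q D (tv s ρ Y Y0 m).1 (tv s ρ Y Y0 m).2 := by
  have z : ∀ g, Y.ρ g = 1 → Y0.ρ g = 1 → (tv s ρ Y Y0 m).1 g = 0 := fun g a b => by
    have e : mr ρ g = 1 := by rw [← d.r, a, Matrix.map_one f f.map_zero f.map_one]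
    have e' : mr ρ g⁻¹ = 1 := by rw [← mi g, e, mul_one]
    simp only [tv]
    rw [a, b, e, e', sub_self, zero_mul, zero_add, one_mul, mul_one, sub_self]
  refine ⟨fun g k => ?_, ⟨Y.ρ.ker ⊓ Y0.ρ.ker, Y.opn.inter Y0.opn, fun g hg => z g hg.1 hg.2⟩,
    fun l a b P c g e => z g (u l c.1 a b P c.2.1 c.2.2 g e) (u0 l c.1 a b P c.2.1 c.2.2 g e),
    fun l a g hg => ?_, fun l a => if_neg a⟩
  · simp only [tv]
    rw [map_mul, map_mul, h.mmul, h.mmul, d.r, d.r, d0.r, d0.r, mul_inv_rev, mm, mm]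
    have e := mi' (ρ := ρ) k
    calc _ = (mr ρ g * ((Y.ρ k).map s - (Y0.ρ k).map s) * mr ρ k⁻¹ * mr ρ g⁻¹ +
          ((Y.ρ g).map s - (Y0.ρ g).map s) * (mr ρ k * mr ρ k⁻¹) * mr ρ g⁻¹) +
          (m - mr ρ g * mr ρ k * m * (mr ρ k⁻¹ * mr ρ g⁻¹)) := by noncomm_ring
      _ = _ := by rw [e]; noncomm_ring
  · simp only [tv, if_pos a]
    have e := congrArg (fun M : M2 B => M.map s) (hl l a g hg)
    simp only [lr_s h d, lr_s h d0] at e
    have e1 : (Y.ρ g).map s - (Y0.ρ g).map s = ((Y.α l).map s - (Y0.α l).map s) * mr ρ g -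
        mr ρ g * ((Y.α l).map s - (Y0.α l).map s) := by
      rw [← sub_eq_zero] at e ⊢
      rw [← e]
      noncomm_ring
    rw [e1, sub_mul, mul_assoc, mi', mul_one]
    noncomm_ring

theorem tv_inj (h : Fo π f s) {Y Y' Y0 : Obj S B} (p : Y.π = π) (p' : Y'.π = π) (d : Df f ρ Y)
    (d' : Df f ρ Y') {m m' : M2 R} (e : tv s ρ Y Y0 m = tv s ρ Y' Y0 m') :
    m = m' ∧ Y.ρ = Y'.ρ ∧ Y.α = Y'.α := by
  have e1 : ∀ g, (Y.ρ g).map s - (Y'.ρ g).map s = mr ρ g * (m - m') - (m - m') * mr ρ g := by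
    intro g
    have a := congrArg (fun M => M * mr ρ g) (congrFun (congrArg Prod.fst e) g)
    simp only [tv, add_mul, sub_mul, mul_assoc, mi, mul_one] at a
    rw [← sub_eq_zero] at a ⊢
    rw [← a]
    noncomm_ring
  have e2 : ∀ l ∈ S.T, (Y.α l).map s - (Y'.α l).map s = -(m - m') := by
    intro l hl
    have a := congrFun (congrArg Prod.snd e) l
    simp only [tv, if_pos hl] at a
    rw [← sub_eq_zero] at a ⊢
    rw [← a]
    abel
  have hm : m - m' = 0 := by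
    have a := e2 S.l0 S.hl0
    rw [Y.fr, Y'.fr, sub_self] at a
    exact neg_eq_zero.1 a.symm
  refine ⟨sub_eq_zero.1 hm, MonoidHom.ext fun g => h.mext (by rw [d.r, d'.r]) ?_ ?_,
    funext fun l => ?_⟩
  · rw [← sub_eq_zero, e1, hm, mul_zero, zero_mul, sub_self]
  · rw [← p, Y.res, p, ← p', Y'.res]
  · by_cases hl : l ∈ S.T
    · refine h.mext (by rw [d.a, d'.a]) ?_ ?_
      · rw [← sub_eq_zero, e2 l hl, hm, neg_zero]
      · rw [← p, Y.one, p, ← p', Y'.one]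
    · rw [Y.off l hl, Y'.off l hl]

/-- **a family of deformations with the same local representations is counted by the relative
tangent space** -/
theorem tan_card (h : Fo π f s) {A : Type} (Y : A → Obj S B) (v0 : A) (p : ∀ v, (Y v).π = π)
    (d : ∀ v, Df f ρ (Y v)) {Q : Finset ℕ} (u : ∀ v, Unr (Y v) Q) {D : ℕ → Set GQ}
    (hl : ∀ v, ∀ l ∈ S.T, ∀ g ∈ D l, lr (Y v) l g = lr (Y v0) l g)
    (inj : ∀ v w, (Y v).ρ = (Y w).ρ → (Y v).α = (Y w).α → v = w)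
    (hfin : (TanS ρ S.T Q D).Finite) :
    Nat.card A * Nat.card R ^ 4 ≤ Nat.card (TanS ρ S.T Q D) := by
  haveI := hfin.to_subtype
  have c4 : Nat.card (M2 R) = Nat.card R ^ 4 := by
    show Nat.card (Fin 2 → Fin 2 → R) = _
    rw [Nat.card_fun, Nat.card_fun, Nat.card_fin, ← pow_mul]
  rw [← c4, ← Nat.card_prod]
  refine Nat.card_le_card_of_injective (fun x => ⟨tv s ρ (Y x.1) (Y v0) x.2,
    tv_tan h (d _) (d _) (u _) (u _) (hl _) x.2⟩) ?_
  rintro ⟨v, m⟩ ⟨w, m'⟩ e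
  obtain ⟨a, b, c⟩ := tv_inj h (p v) (p w) (d v) (d w) (congrArg Subtype.val e)
  exact Prod.ext (inj v w b c) a

end Vale.Agent.P022S.Tn
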